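import Vale.Agent.P181.TS.Spec

/-!
# P181, TS [F]: transversals for the free columns, round robin
-/

set_option autoImplicit false

namespace Vale.Agent.P181.TS.H696

open Finset Vale.Agent.P181 Vale.Agent.P181.TS Vale.Agent.P181.H59

/-- at most `N / e + 1` of the numbers `c < N` have a given remainder modulo `e` -/
theorem card_mod_le (N e r : ℕ) (_he : 0 < e) :
    (univ.filter fun c : Fin N => (c : ℕ) % e = r).card ≤ N / e + 1 := by
  have h : ((univ.filter fun c : Fin N => (c : ℕ) % e = r).image fun c : Fin N => (c : ℕ) / e) ⊆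
      Finset.range (N / e + 1) := by
    intro x hx
    obtain ⟨c, _, rfl⟩ := Finset.mem_image.1 hx
    rw [Finset.mem_range, Nat.lt_succ_iff]
    exact Nat.div_le_div_right c.2.le
  have h2 : ((univ.filter fun c : Fin N => (c : ℕ) % e = r).image
      fun c : Fin N => (c : ℕ) / e).card = (univ.filter fun c : Fin N => (c : ℕ) % e = r).card := by
    apply Finset.card_image_of_injOn
    intro c hc d hd hcd
    have hc' : (c : ℕ) % e = r := (Finset.mem_filter.1 hc).2
    have hd' : (d : ℕ) % e = r := (Finset.mem_filter.1 hd).2
    apply Fin.ext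
    have hcd' : (c : ℕ) / e = (d : ℕ) / e := hcd
    rw [← Nat.div_add_mod (c : ℕ) e, ← Nat.div_add_mod (d : ℕ) e, hc', hd', hcd']
  rw [← h2]
  exact (Finset.card_le_card h).trans (Finset.card_range _).le

theorem free : FreeStmt := by
  intro b R e NF cl he hcl
  have hf : ∀ i : Fin R, ∃ f : Fin e → Fin b, Function.Injective f ∧ ∀ x, cl (f x) = i := by
    intro i
    obtain ⟨s, hs, hsc⟩ := Finset.exists_subset_card_eq (hcl i)
    let f := s.orderEmbOfFin hsc
    refine ⟨f, f.injective, fun x => ?_⟩
    have h1 : f x ∈ cls cl i := hs (Finset.orderEmbOfFin_mem s hsc x)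
    exact (Finset.mem_filter.1 h1).2
  choose f hfi hfc using hf
  let md : Fin NF → Fin e := fun c => ⟨(c : ℕ) % e, Nat.mod_lt _ he⟩
  have hinj : ∀ c, Function.Injective fun i : Fin R => f i (md c) := by
    intro c i j hij
    have h := congrArg cl hij
    simp only [hfc] at h
    exact h
  refine ⟨fun c => univ.image fun i : Fin R => f i (md c), fun c => ?_, fun c => ?_, fun p => ?_⟩
  · rw [Finset.card_image_of_injective _ (hinj c), Finset.card_univ, Fintype.card_fin]
  · rw [miss, Finset.filter_eq_empty_iff]
    intro i _ h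
    exact h (f i (md c)) (Finset.mem_image_of_mem _ (Finset.mem_univ i)) (hfc i (md c))
  · classical
    by_cases hp : ∃ x : Fin e, f (cl p) x = p
    · obtain ⟨x, hx⟩ := hp
      refine le_trans (Finset.card_le_card ?_) (card_mod_le NF e (x : ℕ) he)
      intro c hc
      have hc' := (Finset.mem_filter.1 hc).2
      obtain ⟨i, _, hi⟩ := Finset.mem_image.1 hc'
      have hi2 : i = cl p := by rw [← hi, hfc]
      subst hi2
      have h3 : md c = x := hfi _ (hi.trans hx.symm)
      rw [Finset.mem_filter]
      exact ⟨Finset.mem_univ c, congrArg Fin.val h3⟩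
    · have h0 : ∀ c, p ∉ univ.image fun i : Fin R => f i (md c) := by
        intro c hc
        obtain ⟨i, _, hi⟩ := Finset.mem_image.1 hc
        have hi2 : i = cl p := by rw [← hi, hfc]
        subst hi2
        exact hp ⟨md c, hi⟩
      have h1 : dgr (fun c : Fin NF => univ.image fun i : Fin R => f i (md c)) p = 0 := by
        unfold dgr
        rw [Finset.card_eq_zero, Finset.filter_eq_empty_iff]
        intro c _
        exact h0 c
      rw [h1]
      exact Nat.zero_le _

end Vale.Agent.P181.TS.H696
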